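import Vale.Agent.P216.B7.Props
import Mathlib.Topology.PartitionOfUnity
import Mathlib.GroupTheory.Index

/-!
# P216-B7, row Z1: a finite covering with a map to the circle
-/

open Set Topology Bundle Manifold

namespace Vale.Agent.P216.B7H550

open Vale.Agent.P216.H126U Vale.Agent.P216.B7

/-! ### The map to the circle and the infinite cyclic covering -/

theorem ex_add_int (r : ℝ) (k : ℤ) : ex (r + k) = ex r := by
  unfold ex
  rw [Circle.exp_eq_exp]
  exact ⟨k, by ring⟩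

theorem ex_eq {r s : ℝ} (h : ex r = ex s) : ∃ k : ℤ, r = s + k := by
  unfold ex at h
  rw [Circle.exp_eq_exp] at h
  obtain ⟨k, hk⟩ := h
  refine ⟨k, ?_⟩
  have hp : (2 * Real.pi) ≠ 0 := by positivity
  have h2 : 2 * Real.pi * r = 2 * Real.pi * (s + k) := by rw [hk]; ring
  exact mul_left_cancel₀ hp h2

theorem ex_cont : Continuous ex := by
  unfold ex
  exact Circle.exp.continuous.comp (continuous_const.mul continuous_id)

theorem homeo {U X : Type} [TopologicalSpace U] [TopologicalSpace X] (P : U → X)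
    (hc : Continuous P) (ho : IsOpenMap P) (hs : Function.Surjective P) (F : U → ℝ)
    (hF : Continuous F) (h : C(X, Circle)) (hh : ∀ e, h (P e) = ex (F e))
    (hi : ∀ e e', P e = P e' → F e = F e' → e = e')
    (hj : ∀ e (k : ℤ), ∃ e', P e' = P e ∧ F e' = F e + k) : Nonempty (U ≃ₜ Xt h) := by
  let Φ : U → Xt h := fun e => ⟨(P e, F e), hh e⟩
  have hΦc : Continuous Φ := (hc.prodMk hF).subtype_mk _
  have hΦi : Function.Injective Φ := fun e e' h1 =>
    hi e e' (congrArg (fun p : Xt h => p.1.1) h1) (congrArg (fun p : Xt h => p.1.2) h1)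
  have hΦs : Function.Surjective Φ := by
    rintro ⟨⟨x, r⟩, hx⟩
    obtain ⟨e, rfl⟩ := hs x
    have h1 : ex r = ex (F e) := hx.symm.trans (hh e)
    obtain ⟨k, hk⟩ := ex_eq h1
    obtain ⟨e', h2, h3⟩ := hj e k
    refine ⟨e', Subtype.ext (Prod.ext h2 ?_)⟩
    exact h3.trans hk.symm
  have hΦo : IsOpenMap Φ := by
    refine IsOpenMap.of_nhds_le fun e => ?_
    intro V hV
    rw [Filter.mem_map] at hV
    have h1 : ∀ᶠ e' in 𝓝 e, |F e' - F e| < 1 / 2 := by
      have h2 : Filter.Tendsto (fun e' => |F e' - F e|) (𝓝 e) (𝓝 |F e - F e|) :=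
        ((hF.sub continuous_const).abs).tendsto e
      refine h2.eventually (p := fun t => t < 1 / 2) (Iio_mem_nhds ?_)
      rw [sub_self, abs_zero]; norm_num
    have h3 : P '' (Φ ⁻¹' V ∩ {e' | |F e' - F e| < 1 / 2}) ∈ 𝓝 (P e) :=
      ho.image_mem_nhds (Filter.inter_mem hV h1)
    have h4 : ∀ᶠ p : Xt h in 𝓝 (Φ e), p.1.1 ∈ P '' (Φ ⁻¹' V ∩ {e' | |F e' - F e| < 1 / 2}) :=
      (continuous_fst.comp continuous_subtype_val).tendsto (Φ e) |>.eventually h3
    have h5 : ∀ᶠ p : Xt h in 𝓝 (Φ e), |p.1.2 - F e| < 1 / 2 := by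
      have h2 : Filter.Tendsto (fun p : Xt h => |p.1.2 - F e|) (𝓝 (Φ e)) (𝓝 |(Φ e).1.2 - F e|) :=
        (((continuous_snd.comp continuous_subtype_val).sub continuous_const).abs).tendsto (Φ e)
      refine h2.eventually (p := fun t => t < 1 / 2) (Iio_mem_nhds ?_)
      show |F e - F e| < 1 / 2
      rw [sub_self, abs_zero]; norm_num
    filter_upwards [h4, h5] with p hp4 hp5
    obtain ⟨e', ⟨he1, he2⟩, he3⟩ := hp4
    have h6 : ex p.1.2 = ex (F e') := by
      rw [← hh e', he3]; exact p.2.symm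
    obtain ⟨k, hk⟩ := ex_eq h6
    have h7 : |(k : ℝ)| < 1 := by
      have h8 : (k : ℝ) = (p.1.2 - F e) - (F e' - F e) := by rw [hk]; ring
      rw [h8]
      have h9 : |F e' - F e| < 1 / 2 := he2
      calc |(p.1.2 - F e) - (F e' - F e)| ≤ |p.1.2 - F e| + |F e' - F e| := abs_sub _ _
        _ < 1 := by linarith
    have h8 : k = 0 := by
      have h9 : |k| < 1 := by exact_mod_cast h7
      exact Int.abs_lt_one_iff.1 h9
    have h9 : Φ e' = p := by
      refine Subtype.ext (Prod.ext he3 ?_)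
      show F e' = p.1.2
      rw [hk, h8, Int.cast_zero, add_zero]
    rw [← h9]; exact he1
  exact ⟨(Equiv.ofBijective Φ ⟨hΦi, hΦs⟩).toHomeomorphOfContinuousOpen hΦc hΦo⟩

/-! ### The associated bundle -/

section ass

variable {n : ℕ} {M I : Type} [TopologicalSpace M] (A : Atlas n M I) [PathConnectedSpace M]
  (x₀ : M) (Q : Type) [TopologicalSpace Q] [DiscreteTopology Q] [MulAction (Pi1 x₀) Q]

/-- the associated bundle -/
noncomputable def core2 : FiberBundleCore I M Q where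
  baseSet i := Set.range (A.ψ i)
  isOpen_baseSet i := (A.emb i).isOpen_range
  indexAt x := (A.cover x).choose
  mem_baseSet_at x := (A.cover x).choose_spec
  coordChange i j x q := (tau A x₀ i j x)⁻¹ • q
  coordChange_self i x _ v := by
    show (tau A x₀ i i x)⁻¹ • v = v
    rw [tau_self, inv_one, one_smul]
  continuousOn_coordChange i j := by
    rintro ⟨x, g⟩ ⟨⟨hi, hj⟩, _⟩
    refine ContinuousAt.continuousWithinAt ?_
    have h1 : ∀ᶠ p : M × Q in 𝓝 (x, g), tau A x₀ i j p.1 = tau A x₀ i j x :=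
      (continuous_fst.tendsto (x, g)).eventually (tau_loc A x₀ i j x hi hj)
    have h2 : ContinuousAt (fun p : M × Q => (tau A x₀ i j x)⁻¹ • p.2) (x, g) :=
      (continuous_of_discreteTopology (f := fun q : Q => (tau A x₀ i j x)⁻¹ • q)).continuousAt.comp
        continuous_snd.continuousAt
    refine h2.congr ?_
    filter_upwards [h1] with p hp
    rw [hp]
  coordChange_comp i j k x _ v := by
    show (tau A x₀ j k x)⁻¹ • (tau A x₀ i j x)⁻¹ • v = (tau A x₀ i k x)⁻¹ • v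
    rw [smul_smul, ← mul_inv_rev, tau_comp]

/-- the total space -/
abbrev TX : Type := (core2 A x₀ Q).TotalSpace

/-- the projection -/
noncomputable def pr2 : C(TX A x₀ Q, M) :=
  ⟨(core2 A x₀ Q).proj, (core2 A x₀ Q).continuous_proj⟩

theorem pr2_cov : IsCoveringMap (pr2 A x₀ Q) :=
  FiberBundle.isCoveringMap (F := Q) (E := (core2 A x₀ Q).Fiber)

variable {Q} in
/-- the map from the universal covering -/
noncomputable def PP (q₀ : Q) (e : UX A x₀) : TX A x₀ Q := ⟨e.1, ((fib e)⁻¹ • q₀ : Q)⟩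

variable {Q} in
theorem PP_cont (q₀ : Q) : Continuous (PP A x₀ q₀) := by
  refine continuous_iff_continuousAt.2 fun e => ?_
  refine (FiberBundle.continuousAt_totalSpace (F := Q) (E := (core2 A x₀ Q).Fiber) _).2 ⟨?_, ?_⟩
  · exact (core A x₀).continuous_proj.continuousAt
  · have h1 : ∀ e' : UX A x₀,
        (tau A x₀ ((core A x₀).indexAt e'.1) ((core A x₀).indexAt e.1) e'.1)⁻¹ •
          ((fib e')⁻¹ • q₀) = (crd ((core A x₀).indexAt e.1) e')⁻¹ • q₀ := by
      intro e'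
      rw [smul_smul, ← mul_inv_rev]
      rfl
    show ContinuousAt (fun e' : UX A x₀ =>
      (tau A x₀ ((core A x₀).indexAt e'.1) ((core A x₀).indexAt e.1) e'.1)⁻¹ •
          ((fib e')⁻¹ • q₀)) e
    simp only [h1]
    exact (continuous_of_discreteTopology (f := fun g : Pi1 x₀ => g⁻¹ • q₀)).continuousAt.comp
      (crd_cont _ e ((core A x₀).mem_baseSet_at e.1))

variable {Q} in
theorem PP_loc (q₀ : Q) : IsLocalHomeomorph (PP A x₀ q₀) := by
  refine IsLocalHomeomorph.of_comp (g := pr2 A x₀ Q) ?_ (pr2_cov A x₀ Q).isLocalHomeomorph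
    (PP_cont A x₀ q₀)
  exact (pr_cov (A := A) (x₀ := x₀)).isLocalHomeomorph

variable {Q} in
theorem PP_surj (q₀ : Q) (hq : ∀ q : Q, ∃ g : Pi1 x₀, g • q₀ = q) :
    Function.Surjective (PP A x₀ q₀) := by
  rintro ⟨x, v⟩
  obtain ⟨g, hg⟩ := hq v
  refine ⟨⟨x, (g⁻¹ : Pi1 x₀)⟩, ?_⟩
  show (⟨x, ((g⁻¹)⁻¹ • q₀ : Q)⟩ : TX A x₀ Q) = ⟨x, v⟩
  rw [inv_inv, hg]

variable {Q} in
theorem PP_smul (q₀ : Q) (γ : Pi1 x₀) (hγ : γ • q₀ = q₀) (e : UX A x₀) :
    PP A x₀ q₀ (γ • e) = PP A x₀ q₀ e := by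
  show (⟨e.1, ((γ * fib e)⁻¹ • q₀ : Q)⟩ : TX A x₀ Q) = ⟨e.1, ((fib e)⁻¹ • q₀ : Q)⟩
  have h1 : (γ * fib e)⁻¹ • q₀ = (fib e)⁻¹ • q₀ := by
    rw [mul_inv_rev, mul_smul, inv_smul_eq_iff.2 hγ.symm]
  rw [h1]

variable {Q} in
theorem PP_eq (q₀ : Q) (e e' : UX A x₀) (h : PP A x₀ q₀ e = PP A x₀ q₀ e') :
    ∃ γ : Pi1 x₀, γ • q₀ = q₀ ∧ γ • e = e' := by
  have h1 : e.1 = e'.1 := congrArg (fun p : TX A x₀ Q => p.1) h
  obtain ⟨γ, rfl⟩ := (smul_orb e e').1 h1
  refine ⟨γ, ?_, rfl⟩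
  have h2 : (⟨e.1, ((γ * fib e)⁻¹ • q₀ : Q)⟩ : TX A x₀ Q) = ⟨e.1, ((fib e)⁻¹ • q₀ : Q)⟩ := h.symm
  have h3 : ((γ * fib e)⁻¹ • q₀ : Q) = (fib e)⁻¹ • q₀ := by
    have h4 := congrArg (fun p : TX A x₀ Q => (p.1, (p.2 : Q))) h2
    exact congrArg Prod.snd h4
  rw [mul_inv_rev, mul_smul] at h3
  have h4 : γ⁻¹ • q₀ = q₀ := smul_left_cancel _ h3
  exact (inv_smul_eq_iff.1 h4).symm

/-- a real function which the deck transformations translate -/
noncomputable def Fn [Fintype I] (ρ : I → C(M, ℝ)) (φ : Pi1 x₀ → ℝ) (e : UX A x₀) : ℝ :=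
  ∑ i, ρ i e.1 * φ (crd i e)

theorem Fn_cont [Fintype I] (ρ : I → C(M, ℝ)) (hρ : ∀ i, tsupport (ρ i) ⊆ range (A.ψ i))
    (φ : Pi1 x₀ → ℝ) : Continuous (Fn A x₀ ρ φ) := by
  refine continuous_finsetSum _ fun i _ => ?_
  refine continuous_iff_continuousAt.2 fun e => ?_
  by_cases h : e.1 ∈ range (A.ψ i)
  · exact ((ρ i).continuous.comp (pr A x₀).continuous).continuousAt.mul
      ((continuous_of_discreteTopology (f := φ)).continuousAt.comp (crd_cont i e h))
  · have h1 : ∀ᶠ y in 𝓝 e.1, ρ i y = 0 := by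
      have h2 : e.1 ∉ tsupport (ρ i) := fun h2 => h (hρ i h2)
      exact notMem_tsupport_iff_eventuallyEq.1 h2
    have h2 : ∀ᶠ e' in 𝓝 e, (0 : ℝ) = ρ i e'.1 * φ (crd i e') := by
      filter_upwards [((pr A x₀).continuous.tendsto e).eventually h1] with e' he'
      have h3 : ρ i e'.1 = 0 := he'
      rw [h3, zero_mul]
    exact continuousAt_const.congr h2

theorem Fn_smul [Fintype I] (ρ : I → C(M, ℝ)) (hρ : ∀ x, ∑ i, ρ i x = 1)
    (φ : Pi1 x₀ → ℝ) (γ : Pi1 x₀) (c : ℝ) (hγ : ∀ g, φ (γ * g) = φ g + c) (e : UX A x₀) :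
    Fn A x₀ ρ φ (γ • e) = Fn A x₀ ρ φ e + c := by
  have h1 : ∀ i, ρ i (γ • e).1 * φ (crd i (γ • e)) = ρ i e.1 * φ (crd i e) + ρ i e.1 * c := by
    intro i
    rw [crd_smul, hγ, smul_proj]; ring
  unfold Fn
  rw [Finset.sum_congr rfl fun i _ => h1 i, Finset.sum_add_distrib, ← Finset.sum_mul, hρ, one_mul]

end ass

/-! ### The cosets -/

section coset

variable {G : Type} [Group G] (H : Subgroup G)

/-- the cosets, with the discrete topology -/
def Qt : Type := G ⧸ H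

instance : TopologicalSpace (Qt H) := ⊥
instance : DiscreteTopology (Qt H) := ⟨rfl⟩
instance : MulAction G (Qt H) := inferInstanceAs (MulAction G (G ⧸ H))

/-- the trivial coset -/
def q0 : Qt H := ((1 : G) : G ⧸ H)

theorem q0_stab (g : G) : g • q0 H = q0 H ↔ g ∈ H := by
  have h1 : g • q0 H = ((g * 1 : G) : G ⧸ H) := rfl
  rw [h1, mul_one]
  show ((g : G) : G ⧸ H) = ((1 : G) : G ⧸ H) ↔ g ∈ H
  rw [QuotientGroup.eq, mul_one, inv_mem_iff]

theorem q0_trans (q : Qt H) : ∃ g : G, g • q0 H = q := by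
  obtain ⟨g, hg⟩ := QuotientGroup.mk_surjective (s := H) q
  refine ⟨g, ?_⟩
  have h1 : g • q0 H = ((g * 1 : G) : G ⧸ H) := rfl
  rw [h1, mul_one]
  exact hg

theorem Qt_finite [hf : H.FiniteIndex] : Finite (Qt H) :=
  Subgroup.finite_quotient_of_finiteIndex (H := H)

theorem mem_out (g : G) : g * (((g⁻¹ : G) : G ⧸ H)).out ∈ H := by
  obtain ⟨h, hh⟩ := QuotientGroup.mk_out_eq_mul H g⁻¹
  rw [hh, mul_inv_cancel_left]
  exact h.2

theorem exists_phi (σ : Multiplicative ℤ ≃* H) :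
    ∃ φ : G → ℝ, ∀ (h : H) (g : G), φ (h * g) = φ g + ((Multiplicative.toAdd (σ.symm h) : ℤ) : ℝ) := by
  refine ⟨fun g => ((Multiplicative.toAdd (σ.symm ⟨_, mem_out H g⟩) : ℤ) : ℝ), fun h g => ?_⟩
  have h1 : ((((h : G) * g)⁻¹ : G) : G ⧸ H) = ((g⁻¹ : G) : G ⧸ H) := by
    rw [QuotientGroup.eq]
    have h2 : (((h : G) * g)⁻¹)⁻¹ * g⁻¹ = h := by group
    rw [h2]; exact h.2
  have h3 : (⟨_, mem_out H ((h : G) * g)⟩ : H) = h * ⟨_, mem_out H g⟩ := by
    refine Subtype.ext ?_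
    show (h : G) * g * (((((h : G) * g)⁻¹ : G) : G ⧸ H)).out = h * (g * (((g⁻¹ : G) : G ⧸ H)).out)
    rw [h1, mul_assoc]
  show ((Multiplicative.toAdd (σ.symm ⟨_, mem_out H ((h : G) * g)⟩) : ℤ) : ℝ) = _
  rw [h3, map_mul, toAdd_mul, Int.cast_add, add_comm]

end coset

/-! ### The fundamental group -/

/-- The two products of the fundamental group. -/
noncomputable def fgEquiv {M : Type} [TopologicalSpace M] (x₀ : M) :
    FundamentalGroup M x₀ ≃* Pi1 x₀ where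
  toFun p := ((FundamentalGroup.toPath p : Pi1 x₀))⁻¹
  invFun p := FundamentalGroup.fromPath (p⁻¹ : Pi1 x₀)
  left_inv p := inv_inv (G := Pi1 x₀) _
  right_inv p := inv_inv (G := Pi1 x₀) _
  map_mul' p q := by
    have h1 : (FundamentalGroup.toPath (p * q) : Pi1 x₀) =
      (FundamentalGroup.toPath q : Pi1 x₀) * (FundamentalGroup.toPath p : Pi1 x₀) := rfl
    rw [h1, mul_inv_rev]

theorem z1Goal : Z1Goal := by
  intro E _ _ _ M _ _ _ _ _ x₀ H hfi hσ
  obtain ⟨σ⟩ := hσ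
  have : Nonempty M := ⟨x₀⟩
  have : PathConnectedSpace M := pathConnectedSpace_of_riemannian E
  choose ψ hψ hψ' using fun x : M => exists_param (V := E) x
  obtain ⟨t, ht⟩ := isCompact_univ.elim_finite_subcover (fun x : M => range (ψ x))
    (fun x => (hψ x).isOpen_range) (fun x _ => mem_iUnion.2 ⟨x, hψ' x⟩)
  let A : Atlas (Module.finrank ℝ E) M t := ⟨fun x => ψ x, fun x => hψ x, fun x => by
    obtain ⟨i, hi, hx⟩ := mem_iUnion₂.1 (ht (mem_univ x))
    exact ⟨⟨i, hi⟩, hx⟩⟩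
  obtain ⟨ρ, hρ⟩ := PartitionOfUnity.exists_isSubordinate (isClosed_univ (X := M))
    (fun i : t => range (A.ψ i)) (fun i => (A.emb i).isOpen_range)
    (fun x _ => by
      obtain ⟨i, hi⟩ := A.cover x
      exact mem_iUnion.2 ⟨i, hi⟩)
  have hρ1 : ∀ x, ∑ i, ρ i x = 1 := by
    intro x
    have h1 := ρ.sum_eq_one (mem_univ x)
    rwa [finsum_eq_sum_of_fintype] at h1
  let H' : Subgroup (Pi1 x₀) := H.map (fgEquiv x₀ : FundamentalGroup M x₀ →* Pi1 x₀)
  let σ' : Multiplicative ℤ ≃* H' := σ.trans ((fgEquiv x₀).subgroupMap H)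
  have hfi' : H'.FiniteIndex := by
    refine ⟨?_⟩
    have h1 : H'.index = H.index := Subgroup.index_map_equiv H (fgEquiv x₀)
    rw [h1]
    exact hfi.index_ne_zero
  obtain ⟨φ, hφ⟩ := exists_phi H' σ'
  let F : UX A x₀ → ℝ := Fn A x₀ (fun i => ρ i) φ
  have hF : Continuous F := Fn_cont A x₀ (fun i => ρ i) hρ φ
  have hFs : ∀ (γ : H') (e : UX A x₀), F ((γ : Pi1 x₀) • e) =
      F e + ((Multiplicative.toAdd (σ'.symm γ) : ℤ) : ℝ) := fun γ e =>
    Fn_smul A x₀ (fun i => ρ i) hρ1 φ γ _ (fun g => hφ γ g) e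
  let P : UX A x₀ → TX A x₀ (Qt H') := PP A x₀ (q0 H')
  have hPl : IsLocalHomeomorph P := PP_loc A x₀ (q0 H')
  have hPs : Function.Surjective P := PP_surj A x₀ (q0 H') (q0_trans H')
  have hPe : ∀ e e' : UX A x₀, P e = P e' → ∃ γ : H', (γ : Pi1 x₀) • e = e' := by
    intro e e' h
    obtain ⟨γ, h1, h2⟩ := PP_eq A x₀ (q0 H') e e' h
    exact ⟨⟨γ, (q0_stab H' γ).1 h1⟩, h2⟩
  have hPq : IsQuotientMap P := hPl.isOpenMap.isQuotientMap hPl.continuous hPs
  let h0 : TX A x₀ (Qt H') → Circle := fun x => ex (F (Function.surjInv hPs x))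
  have hh0 : ∀ e, h0 (P e) = ex (F e) := by
    intro e
    obtain ⟨γ, hγ⟩ := hPe e _ (Function.surjInv_eq hPs (P e)).symm
    show ex (F (Function.surjInv hPs (P e))) = ex (F e)
    rw [← hγ, hFs, ex_add_int]
  let h : C(TX A x₀ (Qt H'), Circle) := ⟨h0, by
    refine hPq.continuous_iff.2 ?_
    have h1 : h0 ∘ P = ex ∘ F := funext hh0
    rw [h1]
    exact ex_cont.comp hF⟩
  have hcov : IsCoveringMap (pr2 A x₀ (Qt H')) := pr2_cov A x₀ (Qt H')
  refine ⟨TX A x₀ (Qt H'), inferInstance, ?_, ?_, ?_, pr2 A x₀ (Qt H'), h,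
    hcov.isLocalHomeomorph, ?_⟩
  · refine compactSpace_of_covering hcov fun x => ?_
    have : Finite (Qt H') := Qt_finite H'
    let g : (pr2 A x₀ (Qt H')) ⁻¹' {x} → Qt H' := fun e => e.1.2
    refine Finite.of_injective g ?_
    rintro ⟨⟨y, v⟩, hy⟩ ⟨⟨z, w⟩, hz⟩ hvw
    obtain rfl : y = x := hy
    obtain rfl : z = y := hz
    have h1 : v = w := hvw
    subst h1
    rfl
  · refine ⟨fun e e' hne => ?_⟩
    by_cases h1 : e.1 = e'.1
    · exact hcov.isSeparatedMap e e' h1 hne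
    · obtain ⟨u, v, hu, hv, hxu, hxv, huv⟩ := t2_separation h1
      exact ⟨(pr2 A x₀ (Qt H')) ⁻¹' u, (pr2 A x₀ (Qt H')) ⁻¹' v,
        hu.preimage (pr2 A x₀ (Qt H')).continuous,
        hv.preimage (pr2 A x₀ (Qt H')).continuous, hxu, hxv, huv.preimage _⟩
  · have : SimplyConnectedSpace (UX A x₀) := sc
    exact hPs.connectedSpace hPl.continuous
  · have : SimplyConnectedSpace (UX A x₀) := sc
    obtain ⟨Ψ⟩ := homeo P hPl.continuous hPl.isOpenMap hPs F hF h hh0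
      (fun e e' h1 h2 => by
        obtain ⟨γ, rfl⟩ := hPe e e' h1
        rw [hFs] at h2
        have h3 : ((Multiplicative.toAdd (σ'.symm γ) : ℤ) : ℝ) = 0 := by linarith
        have h4 : Multiplicative.toAdd (σ'.symm γ) = 0 := by exact_mod_cast h3
        have h5 : σ'.symm γ = 1 := h4
        have h6 : γ = 1 := by
          have h7 := congrArg σ' h5
          rwa [MulEquiv.apply_symm_apply, map_one] at h7
        rw [h6]
        exact (one_smul _ e).symm)
      (fun e k => by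
        refine ⟨((σ' (Multiplicative.ofAdd k) : H') : Pi1 x₀) • e, ?_, ?_⟩
        · exact PP_smul A x₀ (q0 H') _ ((q0_stab H' _).2 (σ' (Multiplicative.ofAdd k)).2) e
        · rw [hFs, MulEquiv.symm_apply_apply, toAdd_ofAdd])
    exact Ψ.symm.toHomotopyEquiv.simplyConnectedSpace

end Vale.Agent.P216.B7H550
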